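import Vale.Agent.P258.H331.Lemmas

set_option linter.all false

/-!
The enumeration of the colourings of the first pattern by `SL(2, 8)`, as nested functions of the
codes of the colours found so far.
-/

namespace Vale.Agent.P258.Second.H747A

open Vale.Agent.P258.Second

def eqL : List ℕ → List ℕ → Bool
  | [], [] => true
  | a :: l, b :: m => Nat.beq a b && eqL l m
  | _, _ => false

def inL (L : List (List ℕ)) (l : List ℕ) : Bool := L.any fun m => eqL m l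

/-- The codes of the colourings of slope `2` with `x_0` a companion matrix. -/
def lP (t : ℕ) : List (List ℕ) :=
  ([[], [], [], [[1608, 1113, 2814, 1872, 3972, 674, 3038, 4036, 315, 882, 339, 2095, 714, 3908,
    2079, 171, 3972, 1704, 3612, 77, 980], [1608, 2998, 1185, 1704, 1113, 411, 3429, 2862, 2311,
    2503, 171, 3157, 2103, 339, 2247, 3628, 1113, 2095, 3780, 1375, 3523], [1608, 2079, 882,
    3588, 3636, 4036, 3716, 411, 3652, 1185, 2055, 2375, 2439, 2646, 2998, 2702, 3636, 3213,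
    3509, 1862, 1734], [1608, 2247, 2503, 3213, 2079, 2862, 1776, 2071, 1018, 1944, 2702, 1872,
    602, 2055, 1225, 3908, 2079, 2375, 714, 3139, 1175], [1608, 3636, 3604, 3157, 1225, 1393,
    938, 674, 483, 2814, 2646, 3213, 3780, 3628, 1113, 2055, 1225, 3588, 602, 1582, 700], [1608,
    3972, 3373, 2375, 2247, 3325, 1297, 1393, 3596, 3604, 3908, 1704, 3509, 2702, 3636, 339,
    2247, 1872, 2103, 1263, 1566], [1608, 1225, 1944, 2095, 2998, 2071, 2111, 3325, 2087, 3373,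
    3628, 3588, 3612, 171, 3972, 2646, 2998, 3157, 2439, 3083, 3131]], [], [[2632, 2153, 3930,
    3040, 1670, 820, 3818, 1734, 413, 980, 485, 3131, 844, 1990, 3115, 317, 1670, 2872, 1582,
    79, 742], [2632, 3730, 2353, 2872, 2153, 173, 1527, 4026, 3459, 3267, 317, 1127, 3091, 485,
    3395, 1598, 2153, 3131, 1862, 2539, 1221], [2632, 1670, 1471, 3523, 3395, 1375, 2465, 2513,
    1550, 1574, 1990, 2872, 1175, 3850, 1558, 485, 3395, 3040, 3091, 2427, 2602], [2632, 2377,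
    2728, 3131, 3730, 3107, 3099, 1375, 3123, 1471, 1598, 1542, 1582, 317, 1670, 3682, 3730,
    1127, 3203, 1037, 1053], [2632, 3115, 980, 1542, 1558, 1734, 1798, 173, 1606, 2353, 3075,
    3523, 3203, 3682, 3730, 3850, 1558, 1295, 1175, 3010, 2882], [2632, 3395, 3267, 1295, 3115,
    4026, 2896, 3107, 732, 2728, 3850, 3040, 620, 3075, 2377, 1990, 3115, 3523, 844, 1093,
    2339], [2632, 1558, 1574, 1127, 2377, 2513, 700, 820, 245, 3930, 3682, 1295, 1862, 1598,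
    2153, 3075, 2377, 1542, 620, 2618, 798]], [], [[3656, 1828, 3473, 3992, 3193, 319, 2259,
    1692, 1157, 1349, 415, 2163, 1061, 247, 1477, 2586, 3193, 1053, 3010, 3325, 2375], [3656,
    3193, 2028, 3824, 2818, 918, 1916, 2882, 175, 742, 247, 1053, 974, 2754, 1085, 415, 2818,
    3992, 2618, 75, 882], [3656, 1085, 742, 2562, 2594, 2882, 2946, 319, 2626, 3473, 1029, 1221,
    1285, 1652, 1828, 1932, 2594, 2443, 2339, 3780, 4036], [3656, 1477, 1349, 2443, 1085, 1692,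
    4064, 1077, 878, 3896, 1932, 3824, 638, 1029, 3529, 2754, 1085, 1221, 974, 2119, 3509],
    [3656, 2594, 2610, 2163, 3529, 3297, 798, 918, 343, 2028, 1652, 2443, 3010, 2586, 3193,
    1029, 3529, 2562, 638, 3612, 938], [3656, 2818, 2203, 1221, 1477, 2539, 3249, 3297, 2570,
    2610, 2754, 3992, 2339, 1932, 2594, 247, 1477, 3824, 1061, 3549, 3644], [3656, 3529, 3896,
    1053, 1828, 1077, 1069, 2539, 1045, 2203, 2586, 2562, 2618, 415, 2818, 1652, 1828, 2163,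
    1285, 2063, 2095]]] : List (List (List ℕ))).getD t []

/-- The codes of the colourings of slope `-2` with `x_0` a companion matrix. -/
def lM (t : ℕ) : List (List ℕ) :=
  ([[], [], [], [[1608, 4036, 171, 1225, 1776, 2119, 1872, 2862, 674, 3325, 3652, 339, 2095,
    3636, 411, 3596, 2055, 3620, 2814, 3038, 1225], [1608, 2071, 3908, 1113, 938, 3620, 3213,
    1393, 2862, 4036, 2087, 2702, 1872, 2998, 3325, 3652, 3628, 1848, 2503, 1776, 1113], [1608,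
    411, 2702, 3972, 2111, 3844, 3588, 2071, 4036, 1393, 2311, 2055, 2375, 1113, 2862, 483, 171,
    2063, 882, 3716, 3972], [1608, 2862, 3628, 3636, 1297, 1529, 1704, 3325, 411, 674, 1018,
    171, 3157, 2079, 2071, 315, 2702, 2016, 1185, 3429, 3636], [1608, 1393, 339, 2998, 3716,
    2016, 2375, 4036, 3325, 2862, 483, 3908, 1704, 1225, 674, 1018, 2646, 3844, 3373, 1297,
    2998], [1608, 674, 2055, 2247, 3429, 1848, 3157, 411, 1393, 2071, 315, 2646, 3213, 3972,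
    4036, 2087, 339, 1529, 3604, 938, 2247], [1608, 3325, 2646, 2079, 3038, 2063, 2095, 674,
    2071, 411, 3596, 3628, 3588, 2247, 1393, 2311, 3908, 2119, 1944, 2111, 2079]], [], [[2632,
    1734, 317, 2377, 2896, 3139, 3040, 4026, 820, 1375, 1606, 485, 3131, 1558, 173, 1550, 3075,
    1590, 3930, 3818, 2377], [2632, 3107, 1990, 2153, 700, 1590, 1295, 2513, 4026, 1734, 3123,
    3850, 3040, 3730, 1375, 1606, 1598, 2968, 3267, 2896, 2153], [2632, 2513, 485, 3730, 1798,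
    2800, 3523, 1734, 1375, 4026, 245, 1990, 2872, 2377, 820, 732, 3682, 1926, 1471, 2465,
    3730], [2632, 820, 3075, 3395, 1527, 2968, 1127, 173, 2513, 3107, 413, 3682, 1295, 1670,
    1734, 3123, 485, 2265, 1574, 700, 3395], [2632, 1375, 3682, 3115, 3818, 3083, 3131, 820,
    3107, 173, 1550, 1598, 1542, 3395, 2513, 3459, 1990, 3139, 2728, 3099, 3115], [2632, 173,
    3850, 1670, 3099, 1926, 1542, 3107, 1734, 2513, 3459, 3075, 3523, 2153, 4026, 245, 317,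
    3083, 980, 1798, 1670], [2632, 4026, 1598, 1558, 2465, 2265, 2872, 1375, 173, 820, 732, 317,
    1127, 3115, 3107, 413, 3850, 2800, 2353, 1527, 1558]], [], [[3656, 2882, 415, 3529, 4064,
    1093, 3824, 1692, 918, 2539, 2626, 247, 1053, 2594, 319, 2570, 1029, 2578, 2028, 1916,
    3529], [3656, 1077, 2754, 3193, 798, 2578, 2443, 3297, 1692, 2882, 1045, 1932, 3824, 1828,
    2539, 2626, 2586, 3752, 1349, 4064, 3193], [3656, 319, 1932, 2818, 1069, 2690, 2562, 1077,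
    2882, 3297, 1157, 1029, 1221, 3193, 1692, 343, 415, 1037, 742, 2946, 2818], [3656, 1692,
    2586, 2594, 3249, 3433, 3992, 2539, 319, 918, 878, 415, 2163, 1085, 1077, 175, 1932, 3920,
    3473, 2259, 2594], [3656, 3297, 247, 1828, 2946, 3920, 1221, 2882, 2539, 1692, 343, 2754,
    3992, 3529, 918, 878, 1652, 2690, 2203, 3249, 1828], [3656, 918, 1029, 1477, 2259, 3752,
    2163, 319, 3297, 1077, 175, 1652, 2443, 2818, 2882, 1045, 247, 3433, 2610, 798, 1477],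
    [3656, 2539, 1652, 1085, 1916, 1037, 1053, 918, 1077, 319, 2570, 2586, 2562, 1477, 3297,
    1157, 2754, 1093, 3896, 1069, 1085]]] : List (List (List ℕ))).getD t []

def s24 (t : ℕ) (cl cen : List ℕ) (g0 g3 g12 g18 g17 g13 g14 g2 g1 g8 g9 g10 g15 g11 g16 g4 g7 g6
    g5 g19 g20 : ℕ) : Bool :=
  (Nat.beq (mulN (invN g6) g10) 513 && !(Nat.beq g19 513)) || force (mulN (mulN (mulN (mulN (mulN
    (mulN (mulN (mulN (mulN (mulN (mulN (mulN (mulN (mulN (mulN (mulN (mulN (mulN (mulN g8 (invN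
    g17)) g14) (invN g1)) g15) (invN g20)) (invN g15)) g1) (invN g14)) g17) g19) (invN g8)) (invN
    g18)) g3) (invN g10)) g11) (invN g14)) (invN g3)) (invN g12)) (mulN g0 (mulN g0 g0))) fun lam
    =>
  (!(Nat.beq (mulN (mulN g0 g0) lam) 513) || inL (lP t) [g0, g1, g2, g3, g4, g5, g6, g7, g8, g9,
    g10, g11, g12, g13, g14, g15, g16, g17, g18, g19, g20]) && (!(Nat.beq (mulN g0 g0) lam) || inL
    (lM t) [g0, g1, g2, g3, g4, g5, g6, g7, g8, g9, g10, g11, g12, g13, g14, g15, g16, g17, g18,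
    g19, g20])

def s23 (t : ℕ) (cl cen : List ℕ) (g0 g3 g12 g18 g17 g13 g14 g2 g1 g8 g9 g10 g15 g11 g16 g4 g7 g6
    g5 g19 g20 : ℕ) : Bool :=
  !(Nat.beq g5 (cjN g6 g20)) || s24 t cl cen g0 g3 g12 g18 g17 g13 g14 g2 g1 g8 g9 g10 g15 g11 g16
    g4 g7 g6 g5 g19 g20

def s22 (t : ℕ) (cl cen : List ℕ) (g0 g3 g12 g18 g17 g13 g14 g2 g1 g8 g9 g10 g15 g11 g16 g4 g7 g6
    g5 g19 g20 : ℕ) : Bool :=
  !(Nat.beq g19 (cjN g20 g6)) || s23 t cl cen g0 g3 g12 g18 g17 g13 g14 g2 g1 g8 g9 g10 g15 g11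
    g16 g4 g7 g6 g5 g19 g20

def s21 (t : ℕ) (cl cen : List ℕ) (g0 g3 g12 g18 g17 g13 g14 g2 g1 g8 g9 g10 g15 g11 g16 g4 g7 g6
    g5 g19 : ℕ) : Bool :=
  force (ciN g19 g10) fun g20 => s22 t cl cen g0 g3 g12 g18 g17 g13 g14 g2 g1 g8 g9 g10 g15 g11
    g16 g4 g7 g6 g5 g19 g20

def s20 (t : ℕ) (cl cen : List ℕ) (g0 g3 g12 g18 g17 g13 g14 g2 g1 g8 g9 g10 g15 g11 g16 g4 g7 g6
    g5 : ℕ) : Bool :=
  cen.all fun c => force (mulN (mulN (invN (wN g10)) c) (wN g11)) fun g19 => s21 t cl cen g0 g3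
    g12 g18 g17 g13 g14 g2 g1 g8 g9 g10 g15 g11 g16 g4 g7 g6 g5 g19

def s19 (t : ℕ) (cl cen : List ℕ) (g0 g3 g12 g18 g17 g13 g14 g2 g1 g8 g9 g10 g15 g11 g16 g4 g7 g6
    : ℕ) : Bool :=
  force (cjN g4 g15) fun g5 => s20 t cl cen g0 g3 g12 g18 g17 g13 g14 g2 g1 g8 g9 g10 g15 g11 g16
    g4 g7 g6 g5

def s18 (t : ℕ) (cl cen : List ℕ) (g0 g3 g12 g18 g17 g13 g14 g2 g1 g8 g9 g10 g15 g11 g16 g4 g7 :
    ℕ) : Bool :=
  force (cjN g7 g15) fun g6 => s19 t cl cen g0 g3 g12 g18 g17 g13 g14 g2 g1 g8 g9 g10 g15 g11 g16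
    g4 g7 g6

def s17 (t : ℕ) (cl cen : List ℕ) (g0 g3 g12 g18 g17 g13 g14 g2 g1 g8 g9 g10 g15 g11 g16 g4 : ℕ) :
    Bool :=
  force (ciN g8 g1) fun g7 => s18 t cl cen g0 g3 g12 g18 g17 g13 g14 g2 g1 g8 g9 g10 g15 g11 g16
    g4 g7

def s16 (t : ℕ) (cl cen : List ℕ) (g0 g3 g12 g18 g17 g13 g14 g2 g1 g8 g9 g10 g15 g11 g16 : ℕ) :
    Bool :=
  force (ciN g3 g1) fun g4 => s17 t cl cen g0 g3 g12 g18 g17 g13 g14 g2 g1 g8 g9 g10 g15 g11 g16
    g4

def s15 (t : ℕ) (cl cen : List ℕ) (g0 g3 g12 g18 g17 g13 g14 g2 g1 g8 g9 g10 g15 g11 g16 : ℕ) :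
    Bool :=
  !(Nat.beq g16 (cjN g15 g11)) || s16 t cl cen g0 g3 g12 g18 g17 g13 g14 g2 g1 g8 g9 g10 g15 g11
    g16

def s14 (t : ℕ) (cl cen : List ℕ) (g0 g3 g12 g18 g17 g13 g14 g2 g1 g8 g9 g10 g15 g11 : ℕ) : Bool
    :=
  force (cjN g17 g14) fun g16 => s15 t cl cen g0 g3 g12 g18 g17 g13 g14 g2 g1 g8 g9 g10 g15 g11
    g16

def s13 (t : ℕ) (cl cen : List ℕ) (g0 g3 g12 g18 g17 g13 g14 g2 g1 g8 g9 g10 g15 : ℕ) : Bool :=
  force (cjN g12 g8) fun g11 => s14 t cl cen g0 g3 g12 g18 g17 g13 g14 g2 g1 g8 g9 g10 g15 g11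

def s12 (t : ℕ) (cl cen : List ℕ) (g0 g3 g12 g18 g17 g13 g14 g2 g1 g8 g9 g10 : ℕ) : Bool :=
  force (ciN g14 g10) fun g15 => s13 t cl cen g0 g3 g12 g18 g17 g13 g14 g2 g1 g8 g9 g10 g15

def s11 (t : ℕ) (cl cen : List ℕ) (g0 g3 g12 g18 g17 g13 g14 g2 g1 g8 g9 : ℕ) : Bool :=
  force (cjN g9 g17) fun g10 => s12 t cl cen g0 g3 g12 g18 g17 g13 g14 g2 g1 g8 g9 g10

def s10 (t : ℕ) (cl cen : List ℕ) (g0 g3 g12 g18 g17 g13 g14 g2 g1 g8 : ℕ) : Bool :=
  force (ciN g8 g14) fun g9 => s11 t cl cen g0 g3 g12 g18 g17 g13 g14 g2 g1 g8 g9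

def s9 (t : ℕ) (cl cen : List ℕ) (g0 g3 g12 g18 g17 g13 g14 g2 g1 g8 : ℕ) : Bool :=
  !(Nat.beq (Nat.xor (Nat.land g8 7) (Nat.shiftRight g8 9)) t) || s10 t cl cen g0 g3 g12 g18 g17
    g13 g14 g2 g1 g8

def s8 (t : ℕ) (cl cen : List ℕ) (g0 g3 g12 g18 g17 g13 g14 g2 g1 : ℕ) : Bool :=
  cen.all fun c => force (mulN (mulN (invN (wN g0)) c) (wN g1)) fun g8 => s9 t cl cen g0 g3 g12
    g18 g17 g13 g14 g2 g1 g8

def s7 (t : ℕ) (cl cen : List ℕ) (g0 g3 g12 g18 g17 g13 g14 g2 : ℕ) : Bool :=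
  force (cjN g2 g17) fun g1 => s8 t cl cen g0 g3 g12 g18 g17 g13 g14 g2 g1

def s6 (t : ℕ) (cl cen : List ℕ) (g0 g3 g12 g18 g17 g13 g14 : ℕ) : Bool :=
  force (ciN g3 g14) fun g2 => s7 t cl cen g0 g3 g12 g18 g17 g13 g14 g2

def s5 (t : ℕ) (cl cen : List ℕ) (g0 g3 g12 g18 g17 g13 : ℕ) : Bool :=
  force (cjN g13 g3) fun g14 => s6 t cl cen g0 g3 g12 g18 g17 g13 g14

def s4 (t : ℕ) (cl cen : List ℕ) (g0 g3 g12 g18 g17 : ℕ) : Bool :=
  force (ciN g12 g18) fun g13 => s5 t cl cen g0 g3 g12 g18 g17 g13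

def s3 (t : ℕ) (cl cen : List ℕ) (g0 g3 g12 g18 : ℕ) : Bool :=
  force (cjN g18 g3) fun g17 => s4 t cl cen g0 g3 g12 g18 g17

def s2 (t : ℕ) (cl cen : List ℕ) (g0 g3 g12 : ℕ) : Bool :=
  force (cjN g0 g12) fun g18 => s3 t cl cen g0 g3 g12 g18

def s1 (t : ℕ) (cl cen : List ℕ) (g0 g3 : ℕ) : Bool :=
  cl.all fun g12 => s2 t cl cen g0 g3 g12

def s0 (t : ℕ) (cl cen : List ℕ) (g0 : ℕ) : Bool :=
  cl.all fun g3 => s1 t cl cen g0 g3

theorem chk1 : s0 1 (cl 1) (cen 1) (cd 0 1 1 1) = true := by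
  decide +kernel

theorem chk2 : s0 2 (cl 2) (cen 2) (cd 0 1 1 2) = true := by
  decide +kernel

theorem chk3 : s0 3 (cl 3) (cen 3) (cd 0 1 1 3) = true := by
  decide +kernel

theorem chk4 : s0 4 (cl 4) (cen 4) (cd 0 1 1 4) = true := by
  decide +kernel

theorem chk5 : s0 5 (cl 5) (cen 5) (cd 0 1 1 5) = true := by
  decide +kernel

theorem chk6 : s0 6 (cl 6) (cen 6) (cd 0 1 1 6) = true := by
  decide +kernel

theorem chk7 : s0 7 (cl 7) (cen 7) (cd 0 1 1 7) = true := by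
  decide +kernel

theorem chk (t : ℕ) (h0 : t ≠ 0) (h8 : t < 8) : s0 t (cl t) (cen t) (cd 0 1 1 t) = true := by
  interval_cases t
  · exact absurd rfl h0
  exacts [chk1, chk2, chk3, chk4, chk5, chk6, chk7]

/-- Codes of the three colourings of slope `2`. -/
def cP (i : ℕ) : List ℕ :=
  ([[1608, 1113, 2814, 1872, 3972, 674, 3038, 4036, 315, 882, 339, 2095, 714, 3908, 2079, 171,
    3972, 1704, 3612, 77, 980], [2632, 2153, 3930, 3040, 1670, 820, 3818, 1734, 413, 980, 485,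
    3131, 844, 1990, 3115, 317, 1670, 2872, 1582, 79, 742], [3656, 1828, 3473, 3992, 3193, 319,
    2259, 1692, 1157, 1349, 415, 2163, 1061, 247, 1477, 2586, 3193, 1053, 3010, 3325, 2375]] :
    List (List ℕ)).getD i []

/-- Codes of the three colourings of slope `-2`. -/
def cM (i : ℕ) : List ℕ :=
  ([[1608, 4036, 171, 1225, 1776, 2119, 1872, 2862, 674, 3325, 3652, 339, 2095, 3636, 411, 3596,
    2055, 3620, 2814, 3038, 1225], [2632, 1734, 317, 2377, 2896, 3139, 3040, 4026, 820, 1375,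
    1606, 485, 3131, 1558, 173, 1550, 3075, 1590, 3930, 3818, 2377], [3656, 2882, 415, 3529,
    4064, 1093, 3824, 1692, 918, 2539, 2626, 247, 1053, 2594, 319, 2570, 1029, 2578, 2028, 1916,
    3529]] : List (List ℕ)).getD i []

theorem conjP : ((List.range 8).all fun t => (lP t).all fun w => (List.range 3).any fun i =>
    (cen t).any fun c => eqL w ((cP i).map fun x => cjN x c)) = true := by
  decide +kernel

theorem conjM : ((List.range 8).all fun t => (lM t).all fun w => (List.range 3).any fun i =>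
    (cen t).any fun c => eqL w ((cM i).map fun x => cjN x c)) = true := by
  decide +kernel

end Vale.Agent.P258.Second.H747A
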