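import Vale.Agent.P258.R2.H747.G7Code

set_option linter.all false

/-!
The enumeration of the colourings of the first pattern by `PGL(2, 7)`, as nested functions of the
codes of the colours found so far.
-/

namespace Vale.Agent.P258.R2.H747.G7

def eqL : List ℕ → List ℕ → Bool
  | [], [] => true
  | a :: l, b :: m => Nat.beq a b && eqL l m
  | _, _ => false

def inL (L : List (List ℕ)) (l : List ℕ) : Bool := L.any fun m => eqL m l

/-- The codes of the colourings of slope `2` with `x_0` a representative. -/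
def lP (t : ℕ) : List (List ℕ) :=
  ([[], [], [[97, 2777, 97, 776, 1633, 1681, 2985, 1160, 1801, 2201, 2849, 1777, 2777, 2696,
    1113, 241, 2345, 409, 1777, 2385, 1129], [97, 2985, 97, 1329, 265, 2201, 2161, 1681, 1160,
    817, 1225, 1361, 2985, 2696, 241, 2401, 2257, 2849, 1361, 2649, 177], [97, 1441, 97, 1361,
    2697, 849, 1113, 2929, 817, 2441, 681, 2257, 1441, 2696, 2985, 2161, 1897, 1945, 2257, 577,
    329], [97, 361, 97, 1777, 1608, 2929, 1441, 817, 2201, 849, 1945, 2345, 361, 2696, 2777,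
    2985, 1329, 713, 2345, 545, 1649], [97, 2161, 97, 1897, 929, 817, 361, 2201, 1681, 2929,
    713, 2120, 2161, 2696, 2401, 2777, 776, 1225, 2120, 281, 1889], [97, 1113, 97, 2120, 3336,
    2441, 241, 849, 2929, 1801, 1193, 776, 1113, 2696, 2161, 361, 1777, 681, 776, 401, 1249],
    [97, 2401, 97, 2257, 145, 1160, 2777, 1801, 2441, 1681, 409, 1897, 2401, 2696, 1441, 1113,
    2120, 2641, 1897, 2353, 641], [97, 241, 97, 2345, 601, 1801, 2401, 2441, 849, 1160, 2641,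
    1329, 241, 2696, 361, 1441, 1361, 1193, 1329, 2977, 521]]] : List (List (List ℕ))).getD t []

/-- The codes of the colourings of slope `-2` with `x_0` a representative. -/
def lM (t : ℕ) : List (List ℕ) :=
  ([[], [], [[97, 1361, 2120, 145, 776, 1441, 776, 1193, 2120, 1681, 601, 145, 2985, 2696, 681,
    1777, 1945, 1193, 1361, 1745, 105], [97, 2345, 2257, 265, 1897, 241, 1897, 409, 2257, 817,
    1633, 265, 361, 2696, 2641, 2120, 1193, 409, 2345, 1305, 2465], [97, 1777, 1361, 601, 2257,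
    361, 2257, 681, 1361, 1160, 3336, 601, 2777, 2696, 1945, 1897, 713, 681, 1777, 1736, 2137],
    [97, 2257, 776, 929, 1777, 2401, 1777, 2849, 776, 2929, 265, 929, 1441, 2696, 409, 2345,
    2641, 2849, 2257, 1833, 1929], [97, 776, 1329, 1608, 1361, 2777, 1361, 1225, 1329, 849, 929,
    1608, 1113, 2696, 2849, 2257, 409, 1225, 776, 1416, 553], [97, 2120, 2345, 1633, 1329, 1113,
    1329, 2641, 2345, 2201, 145, 1633, 2161, 2696, 1193, 1361, 681, 2641, 2120, 1425, 225], [97,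
    1329, 1897, 2697, 2120, 2985, 2120, 713, 1897, 2441, 1608, 2697, 241, 2696, 1225, 776, 2849,
    713, 1329, 537, 705], [97, 1897, 1777, 3336, 2345, 2161, 2345, 1945, 1777, 1801, 2697, 3336,
    2401, 2696, 713, 1329, 1225, 1945, 1897, 897, 1689]]] : List (List (List ℕ))).getD t []

def s24 (t : ℕ) (cl tb : List ℕ) (g0 g3 g12 g18 g17 g13 g14 g2 g1 g8 g9 g10 g15 g11 g16 g4 g7 g6
    g5 g19 g20 : ℕ) : Bool :=
  (Nat.beq (mulN (invN g6) g10) 513 && !(Nat.beq g19 513)) || force (mulN (mulN (mulN (mulN (mulN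
    (mulN (mulN (mulN (mulN (mulN (mulN (mulN (mulN (mulN (mulN (mulN (mulN (mulN (mulN g8 (invN
    g17)) g14) (invN g1)) g15) (invN g20)) (invN g15)) g1) (invN g14)) g17) g19) (invN g8)) (invN
    g18)) g3) (invN g10)) g11) (invN g14)) (invN g3)) (invN g12)) (mulN g0 (mulN g0 g0))) fun lam
    =>
  (!(Nat.beq (mulN (mulN g0 g0) lam) 513) || inL (lP t) [g0, g1, g2, g3, g4, g5, g6, g7, g8, g9,
    g10, g11, g12, g13, g14, g15, g16, g17, g18, g19, g20]) && (!(Nat.beq (mulN g0 g0) lam) || inL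
    (lM t) [g0, g1, g2, g3, g4, g5, g6, g7, g8, g9, g10, g11, g12, g13, g14, g15, g16, g17, g18,
    g19, g20])

def s23 (t : ℕ) (cl tb : List ℕ) (g0 g3 g12 g18 g17 g13 g14 g2 g1 g8 g9 g10 g15 g11 g16 g4 g7 g6
    g5 g19 g20 : ℕ) : Bool :=
  !(Nat.beq g5 (cjN g6 g20)) || s24 t cl tb g0 g3 g12 g18 g17 g13 g14 g2 g1 g8 g9 g10 g15 g11 g16
    g4 g7 g6 g5 g19 g20

def s22 (t : ℕ) (cl tb : List ℕ) (g0 g3 g12 g18 g17 g13 g14 g2 g1 g8 g9 g10 g15 g11 g16 g4 g7 g6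
    g5 g19 g20 : ℕ) : Bool :=
  !(Nat.beq g19 (cjN g20 g6)) || s23 t cl tb g0 g3 g12 g18 g17 g13 g14 g2 g1 g8 g9 g10 g15 g11 g16
    g4 g7 g6 g5 g19 g20

def s21 (t : ℕ) (cl tb : List ℕ) (g0 g3 g12 g18 g17 g13 g14 g2 g1 g8 g9 g10 g15 g11 g16 g4 g7 g6
    g5 g19 : ℕ) : Bool :=
  force (ciN g19 g10) fun g20 => s22 t cl tb g0 g3 g12 g18 g17 g13 g14 g2 g1 g8 g9 g10 g15 g11 g16
    g4 g7 g6 g5 g19 g20

def s20 (t : ℕ) (cl tb : List ℕ) (g0 g3 g12 g18 g17 g13 g14 g2 g1 g8 g9 g10 g15 g11 g16 g4 g7 g6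
    g5 g19 : ℕ) : Bool :=
  !(Nat.beq g11 (cjN g10 g19)) || s21 t cl tb g0 g3 g12 g18 g17 g13 g14 g2 g1 g8 g9 g10 g15 g11
    g16 g4 g7 g6 g5 g19

def s19 (t : ℕ) (cl tb : List ℕ) (g0 g3 g12 g18 g17 g13 g14 g2 g1 g8 g9 g10 g15 g11 g16 g4 g7 g6
    g5 : ℕ) : Bool :=
  allc.all fun g19 => s20 t cl tb g0 g3 g12 g18 g17 g13 g14 g2 g1 g8 g9 g10 g15 g11 g16 g4 g7 g6
    g5 g19

def s18 (t : ℕ) (cl tb : List ℕ) (g0 g3 g12 g18 g17 g13 g14 g2 g1 g8 g9 g10 g15 g11 g16 g4 g7 g6 :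
    ℕ) : Bool :=
  force (cjN g4 g15) fun g5 => s19 t cl tb g0 g3 g12 g18 g17 g13 g14 g2 g1 g8 g9 g10 g15 g11 g16
    g4 g7 g6 g5

def s17 (t : ℕ) (cl tb : List ℕ) (g0 g3 g12 g18 g17 g13 g14 g2 g1 g8 g9 g10 g15 g11 g16 g4 g7 : ℕ)
    : Bool :=
  force (cjN g7 g15) fun g6 => s18 t cl tb g0 g3 g12 g18 g17 g13 g14 g2 g1 g8 g9 g10 g15 g11 g16
    g4 g7 g6

def s16 (t : ℕ) (cl tb : List ℕ) (g0 g3 g12 g18 g17 g13 g14 g2 g1 g8 g9 g10 g15 g11 g16 g4 : ℕ) :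
    Bool :=
  force (ciN g8 g1) fun g7 => s17 t cl tb g0 g3 g12 g18 g17 g13 g14 g2 g1 g8 g9 g10 g15 g11 g16 g4
    g7

def s15 (t : ℕ) (cl tb : List ℕ) (g0 g3 g12 g18 g17 g13 g14 g2 g1 g8 g9 g10 g15 g11 g16 : ℕ) :
    Bool :=
  force (ciN g3 g1) fun g4 => s16 t cl tb g0 g3 g12 g18 g17 g13 g14 g2 g1 g8 g9 g10 g15 g11 g16 g4

def s14 (t : ℕ) (cl tb : List ℕ) (g0 g3 g12 g18 g17 g13 g14 g2 g1 g8 g9 g10 g15 g11 g16 : ℕ) :
    Bool :=
  !(Nat.beq g16 (cjN g15 g11)) || s15 t cl tb g0 g3 g12 g18 g17 g13 g14 g2 g1 g8 g9 g10 g15 g11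
    g16

def s13 (t : ℕ) (cl tb : List ℕ) (g0 g3 g12 g18 g17 g13 g14 g2 g1 g8 g9 g10 g15 g11 : ℕ) : Bool :=
  force (cjN g17 g14) fun g16 => s14 t cl tb g0 g3 g12 g18 g17 g13 g14 g2 g1 g8 g9 g10 g15 g11 g16

def s12 (t : ℕ) (cl tb : List ℕ) (g0 g3 g12 g18 g17 g13 g14 g2 g1 g8 g9 g10 g15 : ℕ) : Bool :=
  force (cjN g12 g8) fun g11 => s13 t cl tb g0 g3 g12 g18 g17 g13 g14 g2 g1 g8 g9 g10 g15 g11

def s11 (t : ℕ) (cl tb : List ℕ) (g0 g3 g12 g18 g17 g13 g14 g2 g1 g8 g9 g10 : ℕ) : Bool :=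
  force (ciN g14 g10) fun g15 => s12 t cl tb g0 g3 g12 g18 g17 g13 g14 g2 g1 g8 g9 g10 g15

def s10 (t : ℕ) (cl tb : List ℕ) (g0 g3 g12 g18 g17 g13 g14 g2 g1 g8 g9 : ℕ) : Bool :=
  force (cjN g9 g17) fun g10 => s11 t cl tb g0 g3 g12 g18 g17 g13 g14 g2 g1 g8 g9 g10

def s9 (t : ℕ) (cl tb : List ℕ) (g0 g3 g12 g18 g17 g13 g14 g2 g1 g8 : ℕ) : Bool :=
  force (ciN g8 g14) fun g9 => s10 t cl tb g0 g3 g12 g18 g17 g13 g14 g2 g1 g8 g9

def s8 (t : ℕ) (cl tb : List ℕ) (g0 g3 g12 g18 g17 g13 g14 g2 g1 : ℕ) : Bool :=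
  tb.all fun e => !(Nat.beq g1 (Nat.mod e 4096)) || force (Nat.div e 4096) fun g8 => s9 t cl tb g0
    g3 g12 g18 g17 g13 g14 g2 g1 g8

def s7 (t : ℕ) (cl tb : List ℕ) (g0 g3 g12 g18 g17 g13 g14 g2 : ℕ) : Bool :=
  force (cjN g2 g17) fun g1 => s8 t cl tb g0 g3 g12 g18 g17 g13 g14 g2 g1

def s6 (t : ℕ) (cl tb : List ℕ) (g0 g3 g12 g18 g17 g13 g14 : ℕ) : Bool :=
  force (ciN g3 g14) fun g2 => s7 t cl tb g0 g3 g12 g18 g17 g13 g14 g2

def s5 (t : ℕ) (cl tb : List ℕ) (g0 g3 g12 g18 g17 g13 : ℕ) : Bool :=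
  force (cjN g13 g3) fun g14 => s6 t cl tb g0 g3 g12 g18 g17 g13 g14

def s4 (t : ℕ) (cl tb : List ℕ) (g0 g3 g12 g18 g17 : ℕ) : Bool :=
  force (ciN g12 g18) fun g13 => s5 t cl tb g0 g3 g12 g18 g17 g13

def s3 (t : ℕ) (cl tb : List ℕ) (g0 g3 g12 g18 : ℕ) : Bool :=
  force (cjN g18 g3) fun g17 => s4 t cl tb g0 g3 g12 g18 g17

def s2 (t : ℕ) (cl tb : List ℕ) (g0 g3 g12 : ℕ) : Bool :=
  force (cjN g0 g12) fun g18 => s3 t cl tb g0 g3 g12 g18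

def s1 (t : ℕ) (cl tb : List ℕ) (g0 g3 : ℕ) : Bool :=
  cl.all fun g12 => s2 t cl tb g0 g3 g12

def s0 (t : ℕ) (cl tb : List ℕ) (g0 : ℕ) : Bool :=
  cl.all fun g3 => s1 t cl tb g0 g3

theorem chk0 : s0 0 (cl 0) (tb 0) (rep 0) = true := by
  decide +kernel

theorem chk1 : s0 1 (cl 1) (tb 1) (rep 1) = true := by
  decide +kernel

theorem chk2 : s0 2 (cl 2) (tb 2) (rep 2) = true := by
  decide +kernel

theorem chk (t : ℕ) (h : t ∈ List.range 3) : s0 t (cl t) (tb t) (rep t) = true := by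
  rw [List.mem_range] at h
  interval_cases t
  exacts [chk0, chk1, chk2]

/-- Codes of the colouring of slope `2`. -/
def cP : List ℕ :=
  [97, 2777, 97, 776, 1633, 1681, 2985, 1160, 1801, 2201, 2849, 1777, 2777, 2696, 1113, 241,
    2345, 409, 1777, 2385, 1129]

/-- Codes of the colouring of slope `-2`. -/
def cM : List ℕ :=
  [97, 1361, 2120, 145, 776, 1441, 776, 1193, 2120, 1681, 601, 145, 2985, 2696, 681, 1777, 1945,
    1193, 1361, 1745, 105]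

theorem conjP : ((List.range 3).all fun t => (lP t).all fun w =>
    allc.any fun c => Nat.beq (w.headD 0) (cjN (cP.headD 0) c) &&
      eqL w (cP.map fun x => cjN x c)) = true := by
  decide +kernel

theorem conjM : ((List.range 3).all fun t => (lM t).all fun w =>
    allc.any fun c => Nat.beq (w.headD 0) (cjN (cM.headD 0) c) &&
      eqL w (cM.map fun x => cjN x c)) = true := by
  decide +kernel

end Vale.Agent.P258.R2.H747.G7
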